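import Vale.Agent.P167.H623.Lat

open Finset Vale.Agent.P167.H623

/-- **Random-cluster measures with `0 < q ≤ 1`: the hitting capacity of the wired set.**

(1) Finite graphs: for every set `T` of vertices there is one random set of vertices, with law `π`,
such that for ALL wired sets `W` the probability that no open path joins `T` and `W` is the
probability that the random set misses `W`.

(2) Comparison of boundary conditions and strong subadditivity: the probability that `T` is joined
to the wired set increases with the wired set.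

(3) Two different edges with a common end are negatively correlated in the free measure; two
different edges with an end in the wired set are negatively correlated in the measure with this
wired set.

(4) The lattice domains of Q1 at the self-dual point: in the domain enclosed by the polygon `p`, with
the wired arc `p k, …, p (n - 1)`, the probability that no open path joins the set `T` of vertices
and the wired arc is the probability that a random set, whose law `π` does not depend on the marked
point `k`, misses the wired arc. -/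
theorem Vale.Agent.Results.P167.HittingCapacity.result :
    (∀ (V E : Type) [Fintype V] [DecidableEq V] [Fintype E] [DecidableEq E] (a b : E → V)
      (p : E → ℝ) (q : ℝ), (∀ e, 0 ≤ p e ∧ p e < 1) → 0 < q → q ≤ 1 →
      (∀ T : Finset V, ∃ π : Finset V → ℝ, (∀ A, 0 ≤ π A) ∧ ∑ A, π A = 1 ∧
        ∀ W : Finset V, prob a b p q W (Miss a b T W) = ∑ A with Disjoint A W, π A) ∧
      (∀ T W W' : Finset V,
        (W ⊆ W' → prob a b p q W (Hit a b T W) ≤ prob a b p q W' (Hit a b T W')) ∧
        prob a b p q (W ∪ W') (Hit a b T (W ∪ W')) + prob a b p q (W ∩ W') (Hit a b T (W ∩ W')) ≤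
          prob a b p q W (Hit a b T W) + prob a b p q W' (Hit a b T W')) ∧
      (∀ e f : E, e ≠ f →
        ((∃ u, (a e = u ∨ b e = u) ∧ (a f = u ∨ b f = u)) →
          prob a b p q ∅ (fun ω => e ∈ ω ∧ f ∈ ω) ≤
            prob a b p q ∅ (fun ω => e ∈ ω) * prob a b p q ∅ (fun ω => f ∈ ω)) ∧
        ∀ W : Finset V, (a e ∈ W ∨ b e ∈ W) → (a f ∈ W ∨ b f ∈ W) →
          prob a b p q W (fun ω => e ∈ ω ∧ f ∈ ω) ≤
            prob a b p q W (fun ω => e ∈ ω) * prob a b p q W (fun ω => f ∈ ω))) ∧
    (∀ q : ℝ, 0 < q → q ≤ 1 → ∀ (n : ℕ) (p : ZMod n → ℤ × ℤ) (S : Finset (ℤ × ℤ)),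
      IsPolygon p → Encloses p S → ∀ T ⊆ verts S,
      ∃ π : Finset (verts S) → ℝ, (∀ A, 0 ≤ π A) ∧ ∑ A, π A = 1 ∧
        ∀ k, 0 < k → k < n →
          latProb q S (arc p k) (fun A => ∀ x ∈ T, ∀ y ∈ arc p k, ¬ Joined A x y) =
            ∑ A with Disjoint A (inV S (arc p k)), π A) := by
  refine ⟨?_, ?_⟩
  · intro V E _ _ _ _ a b p q hp hq hq1
    exact ⟨capacity a b hp hq hq1, comparison a b hp hq hq1, fun e f hef =>
      ⟨adjacent_free hp hq hq1 hef, fun W he hf => adjacent_wired hp hq hq1 hef he hf⟩⟩
  · intro q hq hq1 n p S hp hS T hT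
    obtain ⟨π, h0, h1, h2⟩ := lat_capacity hq hq1 hT
    exact ⟨π, h0, h1, fun k _ _ => h2 (arc p k) (arc_verts hp hS k)⟩
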