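import Vale.Agent.P167.R3.H713.Main

open Finset Filter Topology Vale.Agent.P167.Final Vale.Agent.P167.R3.H713

/-- **Random-cluster measures with `q` near `1`, on both sides of `1`, compared with critical
percolation.** Notation of the starting file `Final.Question`: `mean q p k S` is the expectation for
the self-dual random-cluster measure with parameter `q` in the lattice domain enclosed by the polygon
`p`, with the wired vertices `p k, …, p (n - 1)`; `mean 1` is critical bond percolation. Put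
`K = 1 + ((√q - 1) / (√q + 1)) ^ 2`.

(1) For every `q > 0` and every function `g` of the open edges which is computed by revealing at most
`m` edges one after another (a decision tree; in particular for every function of the open edges in a
fixed set of at most `m` edges, and for every function of the first `m` steps of the exploration path
which starts with the medial edge `c`), `(E_q g - E_1 g) ^ 2 ≤ (K ^ m - 1) Var_1 g`.

(2) The interface `η` with its number `L` of steps: for every `F` with `|F| ≤ M` and every `m`,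
`|E_q F(η) - E_1 F(η)| ≤ 2 M (√(K ^ (m + 1) - 1) + P_1 (L > m))`.

(3) For sequences of domains and of parameters `q n > 0` with `(q n - 1) ^ 2 E_1 (L n) → 0`, where
`L n` is the number of steps of the interface, one has `E_{q n} F(η) - E_1 F(η) → 0` for every
bounded `F`.

(4) For the approximations of a Jordan domain in Q1 and parameters `q n > 0` with
`(q n - 1) / δ n → 0`, the random-cluster measures and critical percolation have asymptotically the
same law: `E_{q n} F_n - E_1 F_n → 0` for all uniformly bounded functions `F_n` of the open edges, in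
particular for the functions `F(η_n)` of the interfaces.

(5) So the answer to Q1 at `q = 1` (`Question 1`, proved in the starting file `PercolationSLE6`, which
is not imported here) extends to all parameters `q n > 0` with `(q n - 1) / δ n → 0`, in particular
`q n < 1`: the interfaces converge in law to chordal `SLE_6`. -/
theorem Vale.Agent.Results.P167.NearPercolation.result :
    (∀ (q : ℝ), 0 < q → ∀ (n : ℕ) (p : ZMod n → ℤ × ℤ) (k : ℕ) (S : Finset (ℤ × ℤ)) (m : ℕ)
      (g : Finset (Sym2 (ℤ × ℤ)) → ℝ),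
      (Dep m (edges S) g ∨
        (∃ R : Finset (Sym2 (ℤ × ℤ)), R.card ≤ m ∧
          ∀ A ⊆ edges S, ∀ B ⊆ edges S, A ∩ R = B ∩ R → g A = g B) ∨
        ∃ c : Medial, ∀ A ⊆ edges S, ∀ B ⊆ edges S,
          (∀ j ≤ m, path (wiredOpen p k A) c j = path (wiredOpen p k B) c j) → g A = g B) →
      (mean q p k S g - mean 1 p k S g) ^ 2 ≤ ((1 + ((√q - 1) / (√q + 1)) ^ 2) ^ m - 1) *
        (mean 1 p k S (fun A => g A ^ 2) - mean 1 p k S g ^ 2)) ∧
    (∀ (q : ℝ), 0 < q → ∀ (n : ℕ) (p : ZMod n → ℤ × ℤ) (k : ℕ) (S : Finset (ℤ × ℤ)) (δ : ℝ)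
      (η : Finset (Sym2 (ℤ × ℤ)) → C(unitInterval, ℂ)) (L : Finset (Sym2 (ℤ × ℤ)) → ℕ),
      (∀ A ⊆ edges S, HasSteps p k δ A (η A) (L A)) →
      ∀ (F : C(unitInterval, ℂ) → ℝ) (M : ℝ), (∀ x, |F x| ≤ M) → ∀ m : ℕ,
        |mean q p k S (fun A => F (η A)) - mean 1 p k S (fun A => F (η A))| ≤
          2 * M * (√((1 + ((√q - 1) / (√q + 1)) ^ 2) ^ (m + 1) - 1) +
            mean 1 p k S fun A => if m < L A then 1 else 0)) ∧
    (∀ (q : ℕ → ℝ), (∀ n, 0 < q n) → ∀ (N k : ℕ → ℕ) (p : ∀ n, ZMod (N n) → ℤ × ℤ)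
      (S : ℕ → Finset (ℤ × ℤ)) (δ : ℕ → ℝ)
      (η : ∀ n : ℕ, Finset (Sym2 (ℤ × ℤ)) → C(unitInterval, ℂ))
      (L : ∀ n : ℕ, Finset (Sym2 (ℤ × ℤ)) → ℕ),
      (∀ n, ∀ A ⊆ edges (S n), HasSteps (p n) (k n) (δ n) A (η n A) (L n A)) →
      Tendsto (fun n => (q n - 1) ^ 2 * mean 1 (p n) (k n) (S n) fun A => (L n A : ℝ))
        atTop (𝓝 0) →
      ∀ (F : C(unitInterval, ℂ) → ℝ) (M : ℝ), (∀ x, |F x| ≤ M) →
        Tendsto (fun n => mean (q n) (p n) (k n) (S n) (fun A => F (η n A)) -
          mean 1 (p n) (k n) (S n) (fun A => F (η n A))) atTop (𝓝 0)) ∧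
    (∀ (Φ : (ℝ × ℝ) ≃ₜ (ℝ × ℝ)) (δ : ℕ → ℝ) (N k : ℕ → ℕ) (p : ∀ n, ZMod (N n) → ℤ × ℤ)
      (S : ℕ → Finset (ℤ × ℤ)), Approx Φ δ N k p S →
      ∀ (q : ℕ → ℝ), (∀ n, 0 < q n) → Tendsto (fun n => (q n - 1) / δ n) atTop (𝓝 0) →
      ∀ (F : ℕ → Finset (Sym2 (ℤ × ℤ)) → ℝ) (M : ℝ), (∀ n A, |F n A| ≤ M) →
        Tendsto (fun n => mean (q n) (p n) (k n) (S n) (F n) -
          mean 1 (p n) (k n) (S n) (F n)) atTop (𝓝 0)) ∧
    (Question 1 → QuestionNear) := by
  refine ⟨?_, ?_, ?_, ?_, near_of_question⟩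
  · rintro q hq n p k S m g (h | ⟨R, hR, h⟩ | ⟨c, h⟩)
    · exact mean_dep hq p k S h
    · exact mean_dep hq p k S ((dep_local R (edges S) g h).mono hR)
    · exact mean_steps hq p k S m c h
  · intro q hq n p k S δ η L h F M hF m
    have h1 := whole hq p k S δ (fun A hA => ⟨L A, h A hA⟩) hF m
    rw [probLong_eq h] at h1
    exact h1
  · intro q hq N k p S δ η L h h1 F M hF
    exact seq_steps hq h h1 hF
  · intro Φ δ N k p S h q hq hqδ F M hF
    exact seq_mesh h hq hqδ hF
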