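import Vale.Agent.P167.H623.Cond

open Finset Vale.Agent.P167.H623

/-- **Crossings of rectangles at the self-dual point, for all `q > 0` and for `0 < q ≤ 1`.**

The graph `ra, rb` is the rectangle of `ℤ²` with `m + 1` rows and `m + 2 + k` columns of vertices;
`left m k` is its left side, `far m k` is the set of the columns `m + 1, …, m + 1 + k` (its right side
if `k = 0`); all edge parameters are equal to the self-dual point of `q`.

(1) For all `q > 0`: if the left side and the far columns are wired, separately, they are joined with
probability `1 / (1 + √q)`.

For `0 < q ≤ 1`, where positive association and the general comparison of boundary conditions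
are false:

(2) the probability that `A` and `B`, wired separately, are joined is at most `1 / (1 + √q)` for all
subsets `A` of the left side and `B` of the far columns, and at least `1 / (1 + √q)` for all disjoint
supersets;

(3) if the left side is covered by sets `A i` and the far columns by sets `B j`, and the two unions
are disjoint, then these probabilities for the pairs `(A i, B j)` have a sum of at least
`1 / (1 + √q)`;

(4) with the boundary conditions of Q1 (the left side is wired, the rest is free): the expected
number of vertices of the far columns which are joined to the left side is at least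
`1 / (1 + √q)`, and each of them is joined to it with probability at most `1 / (1 + √q)`;

(5) with free boundary conditions: the sum over the vertices `x` of the left side and `y` of the far
columns of the probabilities that `x` and `y` are joined is at least `1 / (1 + √q)`; so there are
vertices `x`, `y` of the left and of the right side of the rectangle with `m + 2` columns (`k = 0`)
which are joined with probability at least `1 / ((1 + √q) (m + 1) ^ 2)`: no exponential decay at the
self-dual point.

For `k = 0`, `sdCross m q O C` is the probability that the left and the right side, wired separately,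
are joined, given that the edges of `O` are open and the edges of `C` are closed (disjoint sets of
edges which are not inside the left or the right side). `mirror` maps the dual edges of the rectangle
to edges, by the reflection at the diagonal; the bottom and the top side of the dual rectangle become
the left and the right side.

(6) For all `q > 0`: `sdCross m q O (mirror O) = 1 / (1 + √q)`, and the duality relation for all
disjoint `O`, `C`. For `0 < q ≤ 1` and regions `O`, `C` as in the exploration of interfaces (each
edge of `O` is joined in `O` to the left or the right side, the dual edge of each edge of `C` is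
joined in the dual edges of `C` to the bottom or the top): `sdCross m q O C` increases with `O` and
decreases with `C`; it is at least `1 / (1 + √q)` if `mirror C ⊆ O`, and at most `1 / (1 + √q)` if
`O ⊆ mirror C`. -/
theorem Vale.Agent.Results.P167.SelfDualCrossing.result :
    (∀ q : ℝ, 0 < q → ∀ m k : ℕ,
      cross2 ra rb (fun _ => selfDual q) q (left m k) (far m k) = 1 / (1 + √q)) ∧
    (∀ q : ℝ, 0 < q → q ≤ 1 → ∀ m : ℕ,
      (∀ k : ℕ,
        (∀ A ⊆ left m k, ∀ B ⊆ far m k,
          cross2 ra rb (fun _ => selfDual q) q A B ≤ 1 / (1 + √q)) ∧
        (∀ A B, left m k ⊆ A → far m k ⊆ B → Disjoint A B →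
          1 / (1 + √q) ≤ cross2 ra rb (fun _ => selfDual q) q A B) ∧
        (∀ (r s : ℕ) (A : Fin r → Finset (RV m k)) (B : Fin s → Finset (RV m k)),
          left m k ⊆ univ.biUnion A → far m k ⊆ univ.biUnion B →
          Disjoint (univ.biUnion A) (univ.biUnion B) →
          1 / (1 + √q) ≤ ∑ i, ∑ j, cross2 ra rb (fun _ => selfDual q) q (A i) (B j)) ∧
        (1 / (1 + √q) ≤ ∑ y ∈ far m k, prob ra rb (fun _ => selfDual q) q (left m k)
          (Hit ra rb {y} (left m k))) ∧
        (∀ y ∈ far m k, prob ra rb (fun _ => selfDual q) q (left m k)
          (Hit ra rb {y} (left m k)) ≤ 1 / (1 + √q)) ∧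
        1 / (1 + √q) ≤ ∑ x ∈ left m k, ∑ y ∈ far m k,
          prob ra rb (fun _ => selfDual q) q ∅ (fun ω => Conn ra rb ω x y)) ∧
      ∃ x ∈ left m 0, ∃ y ∈ far m 0, 1 / ((1 + √q) * (m + 1) ^ 2) ≤
        prob ra rb (fun _ => selfDual q) q ∅ (fun ω => Conn ra rb ω x y)) ∧
    ∀ q : ℝ, 0 < q → ∀ m : ℕ,
      (∀ O : Finset (Inner m), Disjoint O (mirror O) →
        sdCross m q O (mirror O) = 1 / (1 + √q)) ∧
      (∀ O C : Finset (Inner m), Disjoint O C →
        q * (sdCross m q O C * sdCross m q (mirror C) (mirror O)) =
          (1 - sdCross m q O C) * (1 - sdCross m q (mirror C) (mirror O))) ∧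
      (q ≤ 1 → ∀ O C : Finset (Inner m), Attached O → Attached (mirror C) → Disjoint O C →
        (∀ O' C' : Finset (Inner m), Attached O' → Attached (mirror C') → Disjoint O' C' →
          O ⊆ O' → C' ⊆ C → sdCross m q O C ≤ sdCross m q O' C') ∧
        (mirror C ⊆ O → 1 / (1 + √q) ≤ sdCross m q O C) ∧
        (O ⊆ mirror C → sdCross m q O C ≤ 1 / (1 + √q))) := by
  refine ⟨fun q hq m k => cross2_rect m k hq, fun q hq hq1 m => ⟨fun k => ?_, ?_⟩,
    fun q hq m => ⟨fun O h => sdCross_exact hq h, fun O C h => sdCross_duality hq h,
      fun hq1 O C hO hC h => ⟨fun O' C' hO' hC' h' hOO hCC =>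
        sdCross_mono hq hq1 hOO hCC hO hO' hC hC' h h', fun k => sdCross_ge hq hq1 hO hC h k,
        fun k => sdCross_le hq hq1 hO hC h k⟩⟩⟩
  · exact ⟨fun A hA B hB => le_one_div hq hq1 hA hB,
      fun A B hA hB hAB => one_div_le hq hq1 hA hB hAB,
      fun r s A B hA hB hAB => cover_bound hq hq1 r s A B hA hB hAB, wired_bound hq hq1,
      fun y hy => wired_le hq hq1 hy, free_bound hq hq1⟩
  · exact two_point m hq hq1
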