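import Vale.Agent.P167.R2.H68.Sq2

open Finset Filter Topology Vale.Agent.P167.R2.H68.Gen

/-- **Random-cluster measures with `0 < q ≤ 1`: exploration comparison, covariance of connections,
and the wired infinite volume limit.**

(1) Exploration comparison: the vertices outside the finite set `D` are wired. Let `(O, C)` and
`(O', C')` be two regions explored from the wired set (`O`, `O'` open edges, `C`, `C'` closed edges)
with `O ⊆ O'` and `C' ⊆ C`. Then the conditional probability that `T` is joined to the wired set,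
given that `O` is open and `C` closed, is at most the one given that `O'` is open and `C'` closed
(written without denominators).

(2) Covariance: the events that `T` and that `y` are not joined to the wired set have a covariance of
at most `1 / (1 - q)` times the probability that `y` is joined to `T` but `T` is not joined to the
wired set.

(3) Locally finite graphs (`F D` is the set of the edges with an end in `D`), finite or infinite:
for every finite set `T` of vertices one law `π` on the finite sets containing `T` (of total mass at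
most `1`) gives the probability that `T` is not joined to the outside of `D`, for all finite sets `D`
of vertices.

(4) The wired limit: for every set `W₀` of vertices, for all finite sets `P` and `N` of vertices, the
probability that all vertices of `P` and no vertex of `N` are joined to the wired set, which is the
complement of `D`, converges when the finite set `D` increases to the complement of `W₀`.

(5) The same in every subgraph of the square lattice induced by a set `Ω` of vertices, at the
self-dual point. -/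
theorem Vale.Agent.Results.P167.WiredLimit.result (q : ℝ) (hq : 0 < q) (hq1 : q ≤ 1) :
    (∀ (V E : Type) (l r : E → V) (p : E → ℝ), (∀ e, 0 ≤ p e ∧ p e < 1) →
      (∀ (F : Finset E) (D T : Finset V),
        (∀ O C O' C' : Finset E,
          Explored l r (D : Set V)ᶜ O C → Explored l r (D : Set V)ᶜ O' C' →
          O ⊆ O' → C' ⊆ C → O' ⊆ F → C ⊆ F →
          prob l r p q F (D : Set V)ᶜ
              (fun A => Hits l r (D : Set V)ᶜ T A ∧ O ⊆ A ∧ Disjoint C A) *
            prob l r p q F (D : Set V)ᶜ (fun A => O' ⊆ A ∧ Disjoint C' A) ≤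
          prob l r p q F (D : Set V)ᶜ
              (fun A => Hits l r (D : Set V)ᶜ T A ∧ O' ⊆ A ∧ Disjoint C' A) *
            prob l r p q F (D : Set V)ᶜ (fun A => O ⊆ A ∧ Disjoint C A)) ∧
        (∀ y : V, (1 - q) * (prob l r p q F (D : Set V)ᶜ
              (fun A => ¬ Hits l r (D : Set V)ᶜ T A ∧ ¬ Hits l r (D : Set V)ᶜ {y} A) -
            prob l r p q F (D : Set V)ᶜ (fun A => ¬ Hits l r (D : Set V)ᶜ T A) *
              prob l r p q F (D : Set V)ᶜ (fun A => ¬ Hits l r (D : Set V)ᶜ {y} A)) ≤
          prob l r p q F (D : Set V)ᶜ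
            (fun A => ¬ Hits l r (D : Set V)ᶜ T A ∧ ∃ t ∈ T, joined l r ∅ A t y))) ∧
      (∀ F : Finset V → Finset E, (∀ D e, e ∈ F D ↔ l e ∈ D ∨ r e ∈ D) →
        (∀ T : Finset V, ∃ π : Finset V → ℝ, (∀ R, 0 ≤ π R) ∧ (∀ R, π R ≠ 0 → T ⊆ R) ∧
          (∀ s : Finset (Finset V), ∑ R ∈ s, π R ≤ 1) ∧
          ∀ D : Finset V, prob l r p q (F D) (D : Set V)ᶜ
            (fun A => ¬ Hits l r (D : Set V)ᶜ T A) = ∑ R ∈ D.powerset, π R) ∧
        (∀ (W₀ : Set V) (P N : Finset V), ∃ μ : ℝ,
          Tendsto (fun D : Finset {x // x ∉ W₀} => prob l r p q (F (dom W₀ D))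
            (dom W₀ D : Set V)ᶜ (Pattern l r (dom W₀ D : Set V)ᶜ P N)) atTop (𝓝 μ)))) ∧
    (∀ Ω : Set (ℤ × ℤ), ∃ F : Finset Ω → Finset (SqEdge Ω),
      (∀ D e, e ∈ F D ↔ sql Ω e ∈ D ∨ sqr Ω e ∈ D) ∧
      ∀ (W₀ : Set Ω) (P N : Finset Ω), ∃ μ : ℝ,
        Tendsto (fun D : Finset {x // x ∉ W₀} => prob (sql Ω) (sqr Ω)
          (fun _ => √q / (1 + √q)) q (F (dom W₀ D)) (dom W₀ D : Set Ω)ᶜ
          (Pattern (sql Ω) (sqr Ω) (dom W₀ D : Set Ω)ᶜ P N)) atTop (𝓝 μ)) := by
  refine ⟨fun V E l r p hp => ⟨fun F D T => ⟨fun O C O' C' h h' hO hC hOF hCF =>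
    exploration hp hq hq1 T h h' hO hC hOF hCF, fun y => covariance hp hq hq1 F D T y⟩,
    fun F hF => ⟨fun T => one_law hp hq hq1 hF T, fun W₀ P N =>
      wired_limit hp hq hq1 hF W₀ P N⟩⟩, fun Ω => ?_⟩
  obtain ⟨F, hF⟩ := exists_touch Ω
  exact ⟨F, hF, fun W₀ P N => wired_limit (fun _ => selfdual_param hq) hq hq1 hF W₀ P N⟩
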